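import Vale.Agent.P011.H565.P11FF
import Vale.Agent.P011.H698.DensFF

/-!
# Density of the unitary group at two split places, and inverse Cayley transforms

* `near_of_sm` : elements of the unitary group which are close in coordinates are close in
  `GL_n(q.comp)`;
* `dense_two` : the unitary group is dense in `GL_n(q.comp) × GL_n(q'.comp)`;
* `exists_cayset` : an open set of `GL_n` on which the inverse Cayley transform lies in a given open
  set.
-/

open Matrix Filter Module
open scoped Topology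

set_option linter.unusedSectionVars false

namespace Vale.Agent.P011.H732

open Vale.Agent.P011.H738 Vale.Agent.P011.H271 Vale.Agent.P011.H565 Vale.Agent.P011.H698

section near

variable {k K A : Type} [Field k] [Field K] [StarRing K] [Ring A] [StarRing A]
  [Algebra k K] [Algebra k A] [Algebra K A] [IsScalarTower k K A] [StarModule K A] {n N : ℕ}
  {q : Place k} {φ : K →ₐ[k] q.comp} {g : A →+* Matrix (Fin n) (Fin n) q.comp}

theorem map_smul_of (hg : ∀ c : K, g (algebraMap K A c) = algebraMap q.comp _ (φ c)) (c : k)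
    (x : A) : g (c • x) = algebraMap k q.comp c • g x := by
  rw [Algebra.smul_def, map_mul, IsScalarTower.algebraMap_apply k K A, hg, φ.commutes,
    ← Algebra.smul_def]

/-- The image in coordinates. -/
theorem map_eq_sum (hg : ∀ c : K, g (algebraMap K A c) = algebraMap q.comp _ (φ c))
    (B : Basis (Fin N) k A) (x : A) :
    g x = ∑ i, algebraMap k q.comp (B.repr x i) • g (B i) := by
  conv_lhs => rw [← B.sum_repr x]
  rw [map_sum]
  exact Finset.sum_congr rfl fun i _ => map_smul_of hg _ _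

theorem map_star_eq_sum (hg : ∀ c : K, g (algebraMap K A c) = algebraMap q.comp _ (φ c))
    (hst : ∀ (c : k) (x : A), star (c • x) = c • star x)
    (B : Basis (Fin N) k A) (x : A) :
    g (star x) = ∑ i, algebraMap k q.comp (B.repr x i) • g (star (B i)) := by
  conv_lhs => rw [← B.sum_repr x]
  rw [star_sum, map_sum]
  refine Finset.sum_congr rfl fun i _ => ?_
  rw [hst]
  exact map_smul_of hg _ _

/-- **Elements which are close in coordinates are close in `GL_n`.** -/
theorem near_of_sm (hg : ∀ c : K, g (algebraMap K A c) = algebraMap q.comp _ (φ c))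
    (hst : ∀ (c : k) (x : A), star (c • x) = c • star x) (B : Basis (Fin N) k A) (a : UA A)
    {O : Set (Matrix (Fin n) (Fin n) q.comp)ˣ} (hO : O ∈ 𝓝 (rhoR g (UA A) a)) :
    ∃ ε : ℝ, 0 < ε ∧ ∀ u : UA A, Sm B q ε (((u : Aˣ) : A) - ((a : Aˣ) : A)) →
      rhoR g (UA A) u ∈ O := by
  rw [Units.isInducing_embedProduct.nhds_eq_comap] at hO
  obtain ⟨O', hO', hOO⟩ := Filter.mem_comap.1 hO
  let H : (Fin N → q.comp) → Matrix (Fin n) (Fin n) q.comp × (Matrix (Fin n) (Fin n) q.comp)ᵐᵒᵖ :=
    fun c => (g ((a : Aˣ) : A) + ∑ i, c i • g (B i),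
      MulOpposite.op (g (star ((a : Aˣ) : A)) + ∑ i, c i • g (star (B i))))
  have hH : Continuous H := by
    refine Continuous.prodMk ?_ (MulOpposite.continuous_op.comp ?_)
    · refine continuous_const.add (continuous_finsetSum _ fun i _ => ?_)
      exact (continuous_apply i).smul continuous_const
    · refine continuous_const.add (continuous_finsetSum _ fun i _ => ?_)
      exact (continuous_apply i).smul continuous_const
  have hinv : ∀ u : UA A, Units.embedProduct _ (rhoR g (UA A) u) =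
      (g ((u : Aˣ) : A), MulOpposite.op (g (star ((u : Aˣ) : A)))) := by
    intro u
    refine Prod.ext rfl ?_
    change MulOpposite.op (((rhoR g (UA A) u)⁻¹ : (Matrix (Fin n) (Fin n) q.comp)ˣ) :
      Matrix (Fin n) (Fin n) q.comp) = _
    rw [← map_inv, rhoR_val, ua_inv]
  have hH0 : H 0 = Units.embedProduct _ (rhoR g (UA A) a) := by
    rw [hinv]
    simp [H]
  rw [← hH0] at hO'
  have h1 := hH.continuousAt.preimage_mem_nhds hO'
  obtain ⟨ε, hε, hb⟩ := Metric.mem_nhds_iff.1 h1
  refine ⟨ε, hε, fun u hu => hOO ?_⟩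
  rw [Set.mem_preimage, hinv]
  have h2 : (fun i => algebraMap k q.comp (B.repr (((u : Aˣ) : A) - ((a : Aˣ) : A)) i)) ∈
      Metric.ball (0 : Fin N → q.comp) ε := by
    rw [mem_ball_zero_iff, pi_norm_lt_iff hε]
    intro i
    rw [norm_alg]
    exact hu i
  have h3 := hb h2
  rw [Set.mem_preimage] at h3
  have h4 : H (fun i => algebraMap k q.comp (B.repr (((u : Aˣ) : A) - ((a : Aˣ) : A)) i)) =
      (g ((u : Aˣ) : A), MulOpposite.op (g (star ((u : Aˣ) : A)))) := by
    refine Prod.ext ?_ ?_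
    · change g ((a : Aˣ) : A) + _ = _
      rw [← map_eq_sum hg B, map_sub, add_sub_cancel]
    · change MulOpposite.op (g (star ((a : Aˣ) : A)) + _) = _
      rw [← map_star_eq_sum hg hst B, star_sub, map_sub, add_sub_cancel]
  rwa [h4] at h3

end near

section dense

variable {k K A : Type} [Field k] [Field K] [StarRing K] [Ring A] [StarRing A]
  [Algebra k K] [Algebra k A] [Algebra K A] [IsScalarTower k K A] [StarModule K A] {n N : ℕ}
  {q q' : Place k} {φ : K →ₐ[k] q.comp} {g : A →+* Matrix (Fin n) (Fin n) q.comp}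
  {φ' : K →ₐ[k] q'.comp} {g' : A →+* Matrix (Fin n) (Fin n) q'.comp}

/-- **Density at two split places.** -/
theorem dense_two [Infinite k] (hA : Anis k K A n) (hn : n ≠ 0) (B : Basis (Fin N) k A)
    (hqq : q ≠ q')
    (hg : ∀ c : K, g (algebraMap K A c) = algebraMap q.comp _ (φ c))
    (hspan : Submodule.span q.comp (Set.range fun x : A => (g x, (g (star x)).transpose)) = ⊤)
    (hg' : ∀ c : K, g' (algebraMap K A c) = algebraMap q'.comp _ (φ' c))
    (hspan' : Submodule.span q'.comp
      (Set.range fun x : A => (g' x, (g' (star x)).transpose)) = ⊤) :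
    DenseRange fun u : UA A => (rhoR g (UA A) u, rhoR g' (UA A) u) := by
  classical
  have hst := H519.star_smul_of_anis hA
  have hU : ∀ x : Aˣ, x ∈ UA A ↔ (x : A) * star (x : A) = 1 := fun _ => Iff.rfl
  rintro ⟨x, y⟩
  rw [mem_closure_iff_nhds]
  intro O hO
  obtain ⟨O₀, hO₀, O₁, hO₁, hOO⟩ := mem_nhds_prod_iff.1 hO
  obtain ⟨O₀', hO₀', hO₀o, hxO⟩ := mem_nhds_iff.1 hO₀
  obtain ⟨O₁', hO₁', hO₁o, hyO⟩ := mem_nhds_iff.1 hO₁
  obtain ⟨a, ha⟩ := (denseRange_FF hA hn hg hspan hU).exists_mem_open hO₀o ⟨x, hxO⟩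
  obtain ⟨b, hb⟩ := (denseRange_FF hA hn hg' hspan' hU).exists_mem_open hO₁o ⟨y, hyO⟩
  obtain ⟨ε, hε, h1⟩ := near_of_sm hg hst B a (hO₀o.mem_nhds ha)
  obtain ⟨ε', hε', h1'⟩ := near_of_sm hg' hst B b (hO₁o.mem_nhds hb)
  obtain ⟨u, hu⟩ := weak_unitary' hA B {q, q'} (fun v => if v = q then a else b)
    (lt_min hε hε')
  have h2 := hu q (by simp)
  have h3 := hu q' (by simp)
  rw [if_pos rfl] at h2
  rw [if_neg hqq.symm] at h3
  exact ⟨_, hOO ⟨hO₀' (h1 u (h2.mono (min_le_left _ _))),
    hO₁' (h1' u (h3.mono (min_le_right _ _)))⟩, u, rfl⟩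

end dense

section cayset

variable {ι F : Type*} [Fintype ι] [DecidableEq ι] [Field F] [TopologicalSpace F]
  [IsTopologicalRing F] [ContinuousInv₀ F] [T1Space F]

/-- The invertible matrices without eigenvalue one whose inverse Cayley transform is in `V`. -/
def CaySet (ω ω' : F) (V : Set (Matrix ι ι F)) : Set (Matrix ι ι F)ˣ :=
  {h | (1 - (h : Matrix ι ι F)).det ≠ 0 ∧
    (1 - (h : Matrix ι ι F))⁻¹ * (ω' • (h : Matrix ι ι F) - ω • 1) ∈ V}

theorem isOpen_CaySet (ω ω' : F) {V : Set (Matrix ι ι F)} (hV : IsOpen V) :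
    IsOpen (CaySet ω ω' V) := by
  have hd : Continuous fun h : (Matrix ι ι F)ˣ => (1 - (h : Matrix ι ι F)).det :=
    (continuous_const.sub Units.continuous_val).matrix_det
  rw [isOpen_iff_mem_nhds]
  rintro h ⟨h1, h2⟩
  have hc : ContinuousAt (fun h : (Matrix ι ι F)ˣ =>
      (1 - (h : Matrix ι ι F))⁻¹ * (ω' • (h : Matrix ι ι F) - ω • 1)) h := by
    refine ContinuousAt.mul ?_ ?_
    · have e1 : (fun h : (Matrix ι ι F)ˣ => (1 - (h : Matrix ι ι F))⁻¹) =
          fun h : (Matrix ι ι F)ˣ => ((1 - (h : Matrix ι ι F)).det)⁻¹ •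
            (1 - (h : Matrix ι ι F)).adjugate := by
        funext h
        rw [Matrix.inv_def, Ring.inverse_eq_inv]
      rw [e1]
      have hadj : ContinuousAt (fun h : (Matrix ι ι F)ˣ => (1 - (h : Matrix ι ι F)).adjugate) h :=
        ((continuous_const.sub Units.continuous_val).matrix_adjugate).continuousAt
      exact (hd.continuousAt.inv₀ h1).smul hadj
    · exact ((Units.continuous_val.const_smul ω').sub continuous_const).continuousAt
  filter_upwards [hd.continuousAt.eventually_ne h1, hc.preimage_mem_nhds (hV.mem_nhds h2)]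
    with x hx hx'
  exact ⟨hx, hx'⟩

/-- An invertible matrix with given inverse Cayley transform. -/
theorem mem_CaySet {ω ω' : F} (hne : ω ≠ ω') {V : Set (Matrix ι ι F)} {h : (Matrix ι ι F)ˣ}
    {s : Matrix ι ι F} (hs : s ∈ V)
    (e : (h : Matrix ι ι F) * (s + ω' • 1) = s + ω • 1) : h ∈ CaySet ω ω' V := by
  have e1 : (1 - (h : Matrix ι ι F)) * (s + ω' • 1) = (ω' - ω) • 1 := by
    rw [sub_mul, one_mul, e, sub_smul]
    abel
  have h1 : (1 - (h : Matrix ι ι F)).det ≠ 0 := by
    intro h0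
    have h2 := congrArg Matrix.det e1
    rw [det_mul, h0, zero_mul, det_smul, det_one, mul_one] at h2
    exact (pow_ne_zero _ (sub_ne_zero.2 hne.symm)) h2.symm
  refine ⟨h1, ?_⟩
  have e2 : (1 - (h : Matrix ι ι F)) * s = ω' • (h : Matrix ι ι F) - ω • 1 := by
    rw [mul_add, mul_smul_comm, mul_one] at e
    rw [sub_mul, one_mul, sub_eq_sub_iff_add_eq_add]
    rw [← e, add_comm]
  rw [← e2, Matrix.nonsing_inv_mul_cancel_left _ _ (isUnit_iff_ne_zero.2 h1)]
  exact hs

end cayset

end Vale.Agent.P011.H732
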