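import Vale.Agent.P011.H565.PlaceNorm
import Mathlib.LinearAlgebra.Matrix.Charpoly.Univ
import Mathlib.LinearAlgebra.Matrix.Charpoly.Minpoly
import Mathlib.RingTheory.Polynomial.Eisenstein.Basic
import Mathlib.RingTheory.Polynomial.GaussLemma
import Mathlib.RingTheory.Valuation.ValuationSubring

/-!
# Matrices with irreducible characteristic polynomial over a completion of a function field

`exists_irr` : there is a nonempty open set of matrices over `q.comp` whose characteristic
polynomial is irreducible (an Eisenstein polynomial).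
-/

open Matrix Filter Polynomial
open scoped Topology

namespace Vale.Agent.P011.H732

open Vale.Agent.P011.H738 Vale.Agent.P011.H271 Vale.Agent.P011.H565

noncomputable section

section cont

/-- The coefficients of the characteristic polynomial are continuous. -/
theorem continuous_charpoly_coeff {F : Type*} [CommRing F] [TopologicalSpace F]
    [IsTopologicalRing F] {n : Type*} [Fintype n] [DecidableEq n] (i : ℕ) :
    Continuous fun X : Matrix n n F => X.charpoly.coeff i := by
  have h1 : (fun X : Matrix n n F => X.charpoly.coeff i) = fun X : Matrix n n F =>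
      MvPolynomial.eval (fun p : n × n => X p.1 p.2) ((charpoly.univ F n).coeff i) := by
    funext X
    have h2 := charpoly.univ_coeff_eval₂Hom n (RingHom.id F) (fun p : n × n => X p.1 p.2) i
    have h3 : Matrix.of (Function.curry fun p : n × n => X p.1 p.2) = X := by
      ext a b
      rfl
    rw [h3] at h2
    exact h2.symm
  rw [h1]
  refine (MvPolynomial.continuous_eval _).comp (continuous_pi fun p => ?_)
  exact (continuous_apply p.2).comp (continuous_apply p.1)

end cont

variable {k : Type} [Field k] (q : Place k)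

/-- Gap of the absolute values of the completion. -/
theorem norm_le_inv {x : q.comp} (hx : ‖x‖ < 1) : ‖x‖ ≤ (qq q : ℝ)⁻¹ := by
  by_cases h0 : x = 0
  · rw [h0, norm_zero]
    exact (inv_pos.2 (qq_pos q)).le
  obtain ⟨a, ha⟩ := dense_alg q x (norm_pos_iff.2 h0)
  have h1 : ‖algebraMap k q.comp a‖ = ‖x‖ := by
    have h2 : algebraMap k q.comp a = x + -(x - algebraMap k q.comp a) := by ring
    have h3 : ‖x‖ ≠ ‖-(x - algebraMap k q.comp a)‖ := by
      rw [norm_neg]
      exact ha.ne'
    rw [h2, IsUltrametricDist.norm_add_eq_max_of_norm_ne_norm h3, norm_neg, max_eq_left ha.le]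
  have ha0 : a ≠ 0 := by
    rintro rfl
    rw [map_zero, norm_zero] at h1
    exact h0 (norm_eq_zero.1 h1.symm)
  rw [norm_alg] at h1
  obtain ⟨m, hm⟩ := q.normalized.2.2 a ha0
  have hm' : q.abv a = (qq q : ℝ) ^ m := hm
  rw [← h1, hm'] at hx ⊢
  have h4 : m < 0 := by
    by_contra h
    rw [not_lt] at h
    exact absurd hx (not_lt.2 (one_le_zpow₀ (one_lt_qq' q).le h))
  rw [← _root_.zpow_neg_one]
  exact zpow_le_zpow_right₀ (one_lt_qq' q).le (by omega)

/-- The ring of integers of the completion. -/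
def OV : ValuationSubring q.comp where
  carrier := {x | ‖x‖ ≤ 1}
  mul_mem' := by
    intro x y hx hy
    change ‖x * y‖ ≤ 1
    rw [norm_mul]
    exact mul_le_one₀ hx (norm_nonneg _) hy
  one_mem' := norm_one.le
  add_mem' := by
    intro x y hx hy
    exact (IsUltrametricDist.norm_add_le_max x y).trans (max_le hx hy)
  zero_mem' := by
    change ‖(0 : q.comp)‖ ≤ 1
    rw [norm_zero]
    exact zero_le_one
  neg_mem' := by
    intro x hx
    change ‖-x‖ ≤ 1
    rwa [norm_neg]
  mem_or_inv_mem' := by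
    intro x
    change ‖x‖ ≤ 1 ∨ ‖x⁻¹‖ ≤ 1
    rw [norm_inv]
    rcases le_or_gt ‖x‖ 1 with h | h
    · exact Or.inl h
    · exact Or.inr (inv_le_one_of_one_le₀ h.le)

theorem mem_OV {x : q.comp} : x ∈ OV q ↔ ‖x‖ ≤ 1 := Iff.rfl

/-- The maximal ideal. -/
def PV : Ideal (OV q) where
  carrier := {x | ‖(x : q.comp)‖ < 1}
  add_mem' := by
    intro x y hx hy
    exact (IsUltrametricDist.norm_add_le_max (x : q.comp) y).trans_lt (max_lt hx hy)
  zero_mem' := by
    change ‖((0 : OV q) : q.comp)‖ < 1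
    rw [ZeroMemClass.coe_zero, norm_zero]
    exact zero_lt_one
  smul_mem' := by
    intro c x hx
    change ‖((c • x : OV q) : q.comp)‖ < 1
    rw [smul_eq_mul, MulMemClass.coe_mul, norm_mul]
    exact (mul_le_of_le_one_left (norm_nonneg _) c.2).trans_lt hx

theorem mem_PV {x : OV q} : x ∈ PV q ↔ ‖(x : q.comp)‖ < 1 := Iff.rfl

theorem isPrime_PV : (PV q).IsPrime := by
  refine ⟨?_, ?_⟩
  · intro h
    have h1 : (1 : OV q) ∈ PV q := by rw [h]; trivial
    rw [mem_PV, OneMemClass.coe_one, norm_one] at h1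
    exact lt_irrefl _ h1
  · intro x y hxy
    rw [mem_PV, MulMemClass.coe_mul, norm_mul] at hxy
    by_contra h
    rw [not_or, mem_PV, mem_PV, not_lt, not_lt] at h
    exact absurd hxy (not_lt.2 (one_le_mul_of_one_le_of_one_le h.1 h.2))

theorem norm_le_of_mem_sq {x : OV q} (hx : x ∈ (PV q) ^ 2) :
    ‖(x : q.comp)‖ ≤ (qq q : ℝ)⁻¹ * (qq q : ℝ)⁻¹ := by
  rw [pow_two] at hx
  have h0 : (0 : ℝ) ≤ (qq q : ℝ)⁻¹ := (inv_pos.2 (qq_pos q)).le
  refine Submodule.mul_induction_on hx ?_ ?_
  · intro a ha b hb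
    rw [MulMemClass.coe_mul, norm_mul]
    exact mul_le_mul (norm_le_inv q ha) (norm_le_inv q hb) (norm_nonneg _) h0
  · intro a b ha hb
    exact (IsUltrametricDist.norm_add_le_max (a : q.comp) b).trans (max_le ha hb)

/-- **Eisenstein polynomials.** -/
theorem irreducible_of_norm {f : q.comp[X]} (hf : f.Monic) (hd : 0 < f.natDegree)
    (h1 : ∀ i < f.natDegree, ‖f.coeff i‖ < 1)
    (h2 : (qq q : ℝ)⁻¹ * (qq q : ℝ)⁻¹ < ‖f.coeff 0‖) : Irreducible f := by
  have hl : f ∈ Polynomial.lifts (algebraMap (OV q) q.comp) := by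
    rw [Polynomial.lifts_iff_coeff_lifts]
    intro i
    have h3 : ‖f.coeff i‖ ≤ 1 := by
      rcases lt_trichotomy i f.natDegree with h | h | h
      · exact (h1 i h).le
      · rw [h, hf.coeff_natDegree, norm_one]
      · rw [Polynomial.coeff_eq_zero_of_natDegree_lt h, norm_zero]
        exact zero_le_one
    exact ⟨⟨f.coeff i, h3⟩, rfl⟩
  obtain ⟨g, hg, hgd, hgm⟩ := Polynomial.lifts_and_natDegree_eq_and_monic hl hf
  have hc : ∀ i, ((g.coeff i : OV q) : q.comp) = f.coeff i := by
    intro i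
    rw [← hg, Polynomial.coeff_map]
    rfl
  have hE : g.IsEisensteinAt (PV q) := by
    refine ⟨?_, ?_, ?_⟩
    · rw [hgm.leadingCoeff]
      intro h
      exact (isPrime_PV q).ne_top ((Ideal.eq_top_iff_one _).2 h)
    · intro i hi
      rw [mem_PV, hc]
      exact h1 i (hgd ▸ hi)
    · intro h
      have h3 := norm_le_of_mem_sq q h
      rw [hc] at h3
      exact absurd h2 (not_lt.2 h3)
  have hi := hE.irreducible (isPrime_PV q) hgm.isPrimitive (by rw [hgd]; exact hd)
  rw [← hg]
  exact (hgm.irreducible_iff_irreducible_map_fraction_map (K := q.comp)).1 hi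

/-- A matrix with given characteristic polynomial. -/
theorem exists_charpoly {F : Type*} [Field F] {n : ℕ} {f : F[X]} (hf : f.Monic)
    (hd : f.natDegree = n) : ∃ X : Matrix (Fin n) (Fin n) F, X.charpoly = f := by
  have hf0 : f ≠ 0 := hf.ne_zero
  subst hd
  have h1 := charpoly_leftMulMatrix (AdjoinRoot.powerBasis hf0)
  have h2 : minpoly F (AdjoinRoot.powerBasis hf0).gen = f := by
    rw [AdjoinRoot.powerBasis_gen, AdjoinRoot.minpoly_root hf0, hf.leadingCoeff, inv_one,
      Polynomial.C_1, mul_one]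
  refine ⟨_, h1.trans h2⟩

/-- **A nonempty open set of matrices with irreducible characteristic polynomial.** -/
theorem exists_irr {n : ℕ} (hn : n ≠ 0) : ∃ V : Set (Matrix (Fin n) (Fin n) q.comp),
    IsOpen V ∧ V.Nonempty ∧ ∀ X ∈ V, Irreducible X.charpoly := by
  refine ⟨{X | ∀ i : Fin n, ‖X.charpoly.coeff i‖ < 1} ∩
    {X | (qq q : ℝ)⁻¹ * (qq q : ℝ)⁻¹ < ‖X.charpoly.coeff 0‖}, ?_, ?_, ?_⟩
  · refine IsOpen.inter ?_ ?_
    · have h1 : {X : Matrix (Fin n) (Fin n) q.comp | ∀ i : Fin n, ‖X.charpoly.coeff i‖ < 1} =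
          ⋂ i : Fin n, {X | ‖X.charpoly.coeff i‖ < 1} := by
        ext X
        simp
      rw [h1]
      exact isOpen_iInter_of_finite fun i =>
        isOpen_lt (continuous_charpoly_coeff (i : ℕ)).norm continuous_const
    · exact isOpen_lt continuous_const (continuous_charpoly_coeff 0).norm
  · obtain ⟨ϖ, hϖ0, hϖ⟩ := exists_uniformizer q
    have hq := one_lt_qq' q
    have hq0 := qq_pos q
    obtain ⟨X, hX⟩ := exists_charpoly (F := q.comp) (n := n)
      (f := Polynomial.X ^ n - Polynomial.C (algebraMap k q.comp ϖ))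
      (Polynomial.monic_X_pow_sub_C _ hn) (Polynomial.natDegree_X_pow_sub_C)
    have hϖn : ‖algebraMap k q.comp ϖ‖ = (qq q : ℝ)⁻¹ := by rw [norm_alg, hϖ]
    have hlt : (qq q : ℝ)⁻¹ < 1 := inv_lt_one_of_one_lt₀ hq
    refine ⟨X, ?_, ?_⟩
    · intro i
      rw [hX, Polynomial.coeff_sub, Polynomial.coeff_X_pow, if_neg i.2.ne, zero_sub, norm_neg,
        Polynomial.coeff_C]
      split_ifs
      · rw [hϖn]
        exact hlt
      · rw [norm_zero]
        exact zero_lt_one
    · change (qq q : ℝ)⁻¹ * (qq q : ℝ)⁻¹ < ‖X.charpoly.coeff 0‖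
      rw [hX, Polynomial.coeff_sub, Polynomial.coeff_X_pow, if_neg hn.symm, zero_sub, norm_neg,
        Polynomial.coeff_C_zero, hϖn]
      exact mul_lt_of_lt_one_left (inv_pos.2 hq0) hlt
  · rintro X ⟨h1, h2⟩
    have hd : X.charpoly.natDegree = n := by
      rw [charpoly_natDegree_eq_dim, Fintype.card_fin]
    refine irreducible_of_norm q X.charpoly_monic (by rw [hd]; omega) (fun i hi => ?_) h2
    rw [hd] at hi
    exact h1 ⟨i, hi⟩

end

end Vale.Agent.P011.H732
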