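import Vale.Agent.P011.H871.CoreAbs
import Vale.Agent.P011.H158.LineRing
import Vale.Agent.P011.H158.SepSR

/-!
# The end of the pair route in a ring with anisotropic involution

`eq_one_good` : if `σ₁` is symmetric with irreducible separable minimal polynomial over `K`, `NE`
holds for the words with entries in `K[σ₁]`, and `c` kills the Cayley transforms of the elements of
`k`, then `c` kills the Cayley transform of `σ₁`.

`irr_minpoly` : the minimal polynomial of `σ` is irreducible if the characteristic polynomial of its
image in a second matrix algebra is.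
-/

set_option linter.unusedSectionVars false

namespace Vale.Agent.P011.H732

open Vale.Agent.P011.H21 Vale.Agent.P011.H158 Vale.Agent.P011.H983
open Polynomial

section good

variable {k K A : Type*} [Field k] [Field K] [StarRing K] [Ring A] [StarRing A]
  [Algebra k K] [Algebra k A] [Algebra K A] [IsScalarTower k K A] [StarModule K A] {w : K}

theorem eq_one_good {Q : Type*} [Group Q] [Fintype Q] [Infinite k] [FiniteDimensional k K]
    [Algebra.IsSeparable k K] [FiniteDimensional K A] [Nontrivial A]
    (hA : AnisR A) (hw : star w ≠ w)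
    (hk : ∀ b : k, star (algebraMap k K b) = algebraMap k K b) {e a : k} (chr : CharOK k e)
    (he : w + star w = algebraMap k K e) (ha : w * star w = algebraMap k K a)
    {c : UA A →* Q} {P : Subgroup Q} (hP : P.Normal)
    (hmin : ∀ N : Subgroup Q, N.Normal → N ≤ P → N = ⊥ ∨ N = P)
    (hC : Subgroup.centralizer (P : Set Q) = ⊥)
    (hbase : ∀ b : k, c (cy w (algebraMap k A b)) = 1)
    {σ₁ : A} (hσ₁ : star σ₁ = σ₁) (hirr : Irreducible (minpoly K σ₁))
    (hsep : (minpoly K σ₁).Separable)
    (hNE : ∀ (hE : CF (Algebra.adjoin K {σ₁})) (τ : FE hE), star τ = τ →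
      H966.NE c P (HS w (incl hE) hA hw (incl_star hE) (cE w (incl hE) τ))
        (fun b : k => TE w (incl hE) (algebraMap k (FE hE) b))) : c (cy w σ₁) = 1 := by
  have hE : CF (Algebra.adjoin K {σ₁}) := CF_adjoin hσ₁ hirr
  have hmem : σ₁ ∈ Algebra.adjoin K {σ₁} := Algebra.self_mem_adjoin_singleton K σ₁
  let s : FE hE := gen hE σ₁ hmem
  have hs : incl hE s = σ₁ := rfl
  have hss : star s = s := by
    apply incl_injective hE
    rw [incl_star, hs, hσ₁]
  have i1 : Algebra.IsSeparable K (FE hE) := isSeparable_FE hE (s := s) rfl hsep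
  have i2 : Algebra.IsSeparable k (FE hE) := Algebra.IsSeparable.trans k K (FE hE)
  have i3 : FiniteDimensional k (FE hE) := FiniteDimensional.trans k K (FE hE)
  have hL : ∀ x ∈ IntermediateField.adjoin k {s}, star x = x :=
    fun x hx => star_of_mem_adjoin hE hk hss hx
  have he' : s1 (FE hE) w = algebraMap k (FE hE) e := by
    rw [s1, aw, aw, ← map_add, he]
    rfl
  have ha' : aw (FE hE) w * aw (FE hE) (star w) = algebraMap k (FE hE) a := by
    rw [aw, aw, ← map_mul, ha]
    rfl
  have hbase' : ∀ b : k, c (cE w (incl hE) (algebraMap k (FE hE) b)) = 1 := by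
    intro b
    rw [cE, incl_algebraMap]
    exact hbase b
  have key := H871.eq_one_of_lineE (k := k) (φ := incl hE) (c := c) hA hw (incl_star hE)
    (fun b => incl_algebraMap hE b) (IntermediateField.adjoin k {s}) hL (e := e) (a := a) he' ha'
    hbase' (fun τ hτ h0 b => line_all (k := k) (φ := incl hE) (c := c) hA hw (incl_star hE) hP
      hmin hC (fun b x => by
        rw [incl_algebraMap]
        exact Algebra.commutes b x) (IntermediateField.adjoin k {s}) hL (e := e) (a := a) chr
      he' ha' hbase' (fun τ hτ => hNE hE τ (hL τ hτ)) hτ h0 b)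
    (τ := s) (IntermediateField.mem_adjoin_simple_self k s)
  exact key

end good

section irr

variable {K A F : Type*} [Field K] [Ring A] [Algebra K A] [Field F] {n : ℕ}

/-- **Irreducibility of the minimal polynomial.** -/
theorem irr_minpoly [FiniteDimensional K A] (φ : K →+* F) (g : A →+* Matrix (Fin n) (Fin n) F)
    (hg : ∀ c : K, g (algebraMap K A c) = algebraMap F _ (φ c)) {σ : A}
    (hd : (minpoly K σ).natDegree = n) (hirr : Irreducible (g σ).charpoly) :
    Irreducible (minpoly K σ) := by
  have hint : IsIntegral K σ := IsIntegral.of_finite K σ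
  have hn : n ≠ 0 := by
    rintro rfl
    have h0 : (g σ).charpoly = 1 := by
      rw [← (g σ).charpoly_monic.natDegree_eq_zero]
      rw [Matrix.charpoly_natDegree_eq_dim, Fintype.card_fin]
    rw [h0] at hirr
    exact not_irreducible_one hirr
  haveI : NeZero n := ⟨hn⟩
  have hmon := minpoly.monic hint
  have hev : ∀ p : K[X], aeval (g σ) (p.map φ) = g (aeval σ p) := by
    intro p
    induction p using Polynomial.induction_on' with
    | add p r hp hr => rw [Polynomial.map_add, map_add, map_add, map_add, hp, hr]
    | monomial m a =>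
      rw [map_monomial, aeval_monomial, aeval_monomial, map_mul, map_pow, hg]
  have h1 : aeval (g σ) ((minpoly K σ).map φ) = 0 := by
    rw [hev, minpoly.aeval, map_zero]
  have h2 : minpoly F (g σ) ∣ (minpoly K σ).map φ := minpoly.dvd F _ h1
  have h3 : minpoly F (g σ) ∣ (g σ).charpoly := Matrix.minpoly_dvd_charpoly _
  have h4 : Associated (g σ).charpoly (minpoly F (g σ)) := by
    refine (hirr.dvd_iff.1 h3).resolve_left fun h => ?_
    exact minpoly.not_isUnit F (g σ) h
  have h5 : (g σ).charpoly ∣ (minpoly K σ).map φ := h4.dvd.trans h2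
  have h6 : (minpoly K σ).map φ = (g σ).charpoly := by
    refine (Polynomial.eq_of_monic_of_dvd_of_natDegree_le (g σ).charpoly_monic
      (hmon.map φ) h5 ?_)
    rw [hmon.natDegree_map, hd, Matrix.charpoly_natDegree_eq_dim, Fintype.card_fin]
  refine hmon.irreducible_of_irreducible_map φ _ ?_
  rw [h6]
  exact hirr

end irr

end Vale.Agent.P011.H732
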