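import Vale.Agent.P011.H732.GenTwo
import Vale.Agent.P011.H732.Irr
import Vale.Agent.P011.H732.DenseTwo
import Vale.Agent.P011.H732.RingEnd2
import Vale.Agent.P011.H271.NeRing
import Vale.Agent.P011.H983.TwoBasisGF
import Vale.Agent.P011.H698.T1FF

/-!
# No target over function fields, for every algebra with anisotropic involution

`noTarget_ring` : the core for every central simple algebra with anisotropic involution of the
second kind over a global function field, which need not be a division algebra, every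
characteristic, from the asymptotic upper bound `UPRF`.
-/

open Matrix Filter Module
open scoped Topology

set_option linter.unusedSectionVars false

namespace Vale.Agent.P011.H732

open Vale.Agent.P011.H738 Vale.Agent.P011.H271 Vale.Agent.P011.H565 Vale.Agent.P011.H698
  Vale.Agent.P011.H74 Vale.Agent.P011.H976 Vale.Agent.P011.H158

variable {k K A : Type} [Field k] [Field K] [StarRing K] [Ring A] [StarRing A]
  [Algebra k K] [Algebra k A] [Algebra K A] [IsScalarTower k K A] [StarModule K A] {n N : ℕ}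

section spl

variable {q : Place k} {φ : K →ₐ[k] q.comp} {g : A →+* Matrix (Fin n) (Fin n) q.comp}

/-- The splitting data. -/
theorem exists_spl (hA : Anis k K A n) (hn : n ≠ 0) (B : Basis (Fin N) k A)
    (hg : ∀ c : K, g (algebraMap K A c) = algebraMap q.comp _ (φ c))
    (hspan : Submodule.span q.comp (Set.range fun x : A => (g x, (g (star x)).transpose)) = ⊤) :
    ∃ s : Spl B q.comp n, s.f = g := by
  have hst := H519.star_smul_of_anis hA
  obtain ⟨h1, -, h2⟩ := H519.quad hA.fixed hA.star_ne
  have hKA : FiniteDimensional K A := FiniteDimensional.of_finrank_pos (by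
    rw [hA.finrank_eq]; positivity)
  let v : Fin N → Matrix (Fin n) (Fin n) q.comp × Matrix (Fin n) (Fin n) q.comp :=
    fun i => (g (B i), (g (star (B i))).transpose)
  have hv : ⊤ ≤ Submodule.span q.comp (Set.range v) := by
    rw [← hspan, Submodule.span_le]
    rintro _ ⟨x, rfl⟩
    have h3 : ((g x, (g (star x)).transpose) :
        Matrix (Fin n) (Fin n) q.comp × Matrix (Fin n) (Fin n) q.comp) =
        ∑ i, algebraMap k q.comp (B.repr x i) • v i := by
      refine Prod.ext ?_ ?_
      · rw [Prod.fst_sum]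
        exact map_eq_sum hg B x
      · rw [Prod.snd_sum]
        change (g (star x)).transpose = ∑ i, algebraMap k q.comp (B.repr x i) •
          (g (star (B i))).transpose
        rw [map_star_eq_sum hg hst B, Matrix.transpose_sum]
        rfl
    change (g x, (g (star x)).transpose) ∈ Submodule.span q.comp (Set.range v)
    rw [h3]
    exact Submodule.sum_mem _ fun i _ => Submodule.smul_mem _ _ (Submodule.subset_span ⟨i, rfl⟩)
  have hcard : Fintype.card (Fin N) = finrank q.comp
      (Matrix (Fin n) (Fin n) q.comp × Matrix (Fin n) (Fin n) q.comp) := by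
    rw [← finrank_eq_card_basis B, ← finrank_mul_finrank k K A, h2, hA.finrank_eq,
      finrank_prod, finrank_matrix, finrank_self, Fintype.card_fin]
    ring
  refine ⟨⟨g, fun c => ?_, basisOfTopLeSpanOfCardEqFinrank v hv hcard, fun i => ?_⟩, rfl⟩
  · rw [IsScalarTower.algebraMap_apply k K A, hg, φ.commutes]
  · rw [coe_basisOfTopLeSpanOfCardEqFinrank]

theorem anisR_of_anis (hA : Anis k K A n) (hn : n ≠ 0) : H21.AnisR A := by
  have hKA : FiniteDimensional K A := FiniteDimensional.of_finrank_pos (by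
    rw [hA.finrank_eq]; positivity)
  refine ⟨hA.anisotropic, fun x hx => ?_⟩
  obtain ⟨d, h1, h2⟩ := two_sided (F := K) (y := x) hx
  exact ⟨⟨x, d, h2, h1⟩, rfl⟩

end spl

section cay

variable {q : Place k} {φ : K →ₐ[k] q.comp} {g : A →+* Matrix (Fin n) (Fin n) q.comp} {w : K}

theorem g_smul_one (hg : ∀ c : K, g (algebraMap K A c) = algebraMap q.comp _ (φ c)) (z : K) :
    g (algebraMap K A z) = φ z • (1 : Matrix (Fin n) (Fin n) q.comp) := by
  rw [hg, Algebra.algebraMap_eq_smul_one]

/-- The Cayley transforms of the symmetric elements with image in `V`. -/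
theorem CaySet_nonempty (hA : Anis k K A n) (hn : n ≠ 0) (hw : star w ≠ w)
    (hg : ∀ c : K, g (algebraMap K A c) = algebraMap q.comp _ (φ c))
    (hspan : Submodule.span q.comp (Set.range fun x : A => (g x, (g (star x)).transpose)) = ⊤)
    {V : Set (Matrix (Fin n) (Fin n) q.comp)} (hV : IsOpen V) (hne : V.Nonempty) :
    (CaySet (φ w) (φ (star w)) V).Nonempty := by
  obtain ⟨X, hX⟩ := hne
  obtain ⟨σ, hσ, hσV⟩ := dense_sym_FF hA hg hspan X (hV.mem_nhds hX)
  have h1 := H21.cy_spec (w := w) (anisR_of_anis hA hn) hw hσ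
  refine ⟨rhoR g (UA A) (H21.cy w σ), mem_CaySet (fun h => hw (φ.injective h).symm) hσV ?_⟩
  have h2 := congrArg g h1
  rw [map_mul, map_add, map_add, ← Algebra.algebraMap_eq_smul_one,
    ← Algebra.algebraMap_eq_smul_one, g_smul_one hg, g_smul_one hg] at h2
  exact h2

/-- Elements of the unitary group in `CaySet` are Cayley transforms. -/
theorem exists_of_CaySet (hA : Anis k K A n) (hn : n ≠ 0) (hw : star w ≠ w)
    {u : UA A} (hu1 : (1 - g ((u : Aˣ) : A)).det ≠ 0) :
    ∃ σ : A, star σ = σ ∧ (H21.cy w σ : H21.UA A) = u ∧ (1 - ((u : Aˣ) : A)) * σ =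
      algebraMap K A (star w) * ((u : Aˣ) : A) - algebraMap K A w := by
  have h5 : IsUnit (1 - ((u : Aˣ) : A)) := by
    refine isUnit_of_splitting hA hn g ?_
    rw [map_sub, map_one]
    exact (Matrix.isUnit_iff_isUnit_det _).2 (isUnit_iff_ne_zero.2 hu1)
  have hws : IsUnit (algebraMap K A w - star (algebraMap K A w)) := by
    rw [star_algKB, ← map_sub]
    exact (isUnit_iff_ne_zero.2 (sub_ne_zero.2 (Ne.symm hw))).map (algebraMap K A)
  obtain ⟨σ, hσ, h6, h7, h8⟩ := exists_cay' (w := algebraMap K A w)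
    (fun x => Algebra.commutes w x) hws (ua_mul_star u) (ua_star_mul u) h5
  rw [star_algKB] at h6 h7 h8
  refine ⟨σ, hσ, ?_, h8⟩
  have h9 := H21.cy_spec (w := w) (anisR_of_anis hA hn) hw hσ
  rw [← Algebra.algebraMap_eq_smul_one, ← Algebra.algebraMap_eq_smul_one] at h9
  exact H21.UA_cancel h6 h9 h7

theorem mem_of_CaySet (hg : ∀ c : K, g (algebraMap K A c) = algebraMap q.comp _ (φ c)) {u : UA A}
    {V : Set (Matrix (Fin n) (Fin n) q.comp)}
    (hu : rhoR g (UA A) u ∈ CaySet (φ w) (φ (star w)) V) {σ : A}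
    (h : (1 - ((u : Aˣ) : A)) * σ =
      algebraMap K A (star w) * ((u : Aˣ) : A) - algebraMap K A w) : g σ ∈ V := by
  have h1 := congrArg g h
  rw [map_mul, map_sub, map_one, map_sub, map_mul, g_smul_one hg, g_smul_one hg, smul_mul_assoc,
    one_mul] at h1
  have h2 := hu.2
  have h3 : IsUnit (1 - g ((u : Aˣ) : A)).det := isUnit_iff_ne_zero.2 hu.1
  rw [rhoR_val, ← h1, Matrix.nonsing_inv_mul_cancel_left _ _ h3] at h2
  exact h2

end cay

section main

variable {Ω : Type} [Field Ω] [Algebra K Ω]

/-- **No target, for every algebra with anisotropic involution over a function field**, from the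
asymptotic upper bound. -/
theorem noTarget_ring [GFF k] [StarLinR k A] (hk : IsGlobalFunctionField k) (hA : Anis k K A n)
    (hn : 1 < n) (f : A →ₐ[K] Matrix (Fin n) (Fin n) Ω) (B : Basis (Fin N) k A)
    (hUP : NeRing.UPRF B) : NoTarget f B ∅ 0 := by
  classical
  intro q _ _ φ g hg hspan Q iQ c R hT hcen
  have hn0 : n ≠ 0 := by omega
  have hfinQ : Finite Q := hT.fin
  let _ : Fintype Q := Fintype.ofFinite Q
  have hinf : Infinite k := NeRing.infinite_of_placeR q
  obtain ⟨i1, i2, -⟩ := H519.quad hA.fixed hA.star_ne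
  have hKA : FiniteDimensional K A := FiniteDimensional.of_finrank_pos (by
    rw [hA.finrank_eq]; positivity)
  have hsim := hA.simple
  have hst := H519.star_smul_of_anis hA
  obtain ⟨w, hw⟩ := hA.star_ne
  have hstk : ∀ b : k, star (algebraMap k K b) = algebraMap k K b :=
    fun b => (hA.fixed _).2 ⟨b, rfl⟩
  obtain ⟨e, he⟩ : ∃ e, algebraMap k K e = w + star w :=
    (hA.fixed _).1 (by rw [star_add, star_star, add_comm])
  obtain ⟨a, ha⟩ : ∃ a, algebraMap k K a = w * star w :=
    (hA.fixed _).1 (by rw [star_mul, star_star])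
  have hchr : H983.CharOK k e := H983.charOK_gff inferInstance fun h2 h0 => hw (by
    rw [h0, map_zero] at he
    have h3 : (2 : K) = 0 := by
      have := congrArg (algebraMap k K) h2
      rwa [map_ofNat, map_zero] at this
    have h4 : star w = -w := (eq_neg_of_add_eq_zero_right he.symm)
    rw [h4]
    linear_combination (-w) * h3)
  have hA' := anisR_of_anis hA hn0
  obtain ⟨s, hs⟩ := exists_spl hA hn0 B hg hspan
  obtain ⟨q', hq', -, φ', g', hg', -, hspan'⟩ := H519.exists_split_place hk hA hn0 {q} 0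
  have hqq : q ≠ q' := fun h => hq' (by rw [h]; exact Finset.mem_singleton_self _)
  obtain ⟨V, hVo, hVne, hV⟩ := exists_irr q' hn0
  have hSR : IsOpen {s : Matrix (Fin n) (Fin n) q.comp | SplitReg s} := isOpen_splitReg_comp q
  have hSRne : {s : Matrix (Fin n) (Fin n) q.comp | SplitReg s}.Nonempty := by
    have : Infinite q.comp := Infinite.of_injective _ (algebraMap k q.comp).injective
    obtain ⟨x, hx⟩ := SRS_nonempty (ι := Fin n) (F := q.comp)
    exact ⟨_, hx⟩
  have hden := dense_two hA hn0 B hqq hg hspan hg' hspan'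
  -- the base points
  have hbase : ∀ b : k, c (H21.cy w (algebraMap k A b)) = 1 := by
    intro b
    have hb : star (algebraMap k A b) = algebraMap k A b := by
      rw [IsScalarTower.algebraMap_apply k K A, star_algKB, hstk]
    have h1 := H21.cy_spec (w := w) hA' hw hb
    have h2 := H21.cy_den (w := w) hA' hw hb
    have hz : ∀ z : K, ∀ y : A, (algebraMap k A b + z • (1 : A)) * y =
        y * (algebraMap k A b + z • (1 : A)) := by
      intro z y
      rw [add_mul, mul_add, Algebra.commutes, smul_mul_assoc, mul_smul_comm, one_mul, mul_one]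
    refine hcen _ fun y _ => Subtype.ext (Units.ext ?_)
    change ((H21.cy w (algebraMap k A b) : Aˣ) : A) * ((y : Aˣ) : A) =
      ((y : Aˣ) : A) * ((H21.cy w (algebraMap k A b) : Aˣ) : A)
    refine h2.mul_right_cancel ?_
    rw [mul_assoc, ← hz, ← mul_assoc, h1, mul_assoc, h1, hz]
  have key : ∀ u : UA A, (rhoR g (UA A) u, rhoR g' (UA A) u) ∈
      CaySet (φ w) (φ (star w)) {s : Matrix (Fin n) (Fin n) q.comp | SplitReg s} ×ˢ
        CaySet (φ' w) (φ' (star w)) V → u ∈ c.ker := by
    rintro u ⟨hu0, hu1⟩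
    obtain ⟨σ, hσ, hu, hσu⟩ := exists_of_CaySet hA hn0 hw hu0.1
    have h9 : g σ ∈ H210.SR (Fin n) q.comp := mem_of_CaySet hg hu0 hσu
    have h10 : g' σ ∈ V := mem_of_CaySet hg' hu1 hσu
    obtain ⟨hsep, hdeg⟩ := minpoly_of_SR (φ : K →+* q.comp) g hg (span_fst hspan)
      hA.finrank_eq h9
    have hirr := irr_minpoly (φ' : K →+* q'.comp) g' hg' hdeg (hV _ h10)
    have h11 : c (H21.cy w σ) = 1 := by
      refine eq_one_good (c := c) hA' hw hstk hchr he.symm ha.symm hT.normal hT.min hT.cent hbase
        hσ hirr hsep fun hE τ hτ => ?_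
      have hmem : σ ∈ Algebra.adjoin K {σ} := Algebra.self_mem_adjoin_singleton K σ
      refine NeRing.ne_ffR_cE hA hn hUP s (φ₀ := (φ : K →+* q.comp)) (fun x => by rw [hs]; exact hg x)
        hA' hw (incl_star hE) (σ := gen hE σ hmem) ?_ ?_ hT hτ
      · apply incl_injective hE
        rw [incl_star]
        exact hσ
      · rw [hs]
        exact h9
    rw [MonoidHom.mem_ker, ← hu]
    exact h11
  obtain ⟨O, hO, hOc⟩ := comm_mem_of_two (rhoR g (UA A)) (rhoR g' (UA A)) hden
    (fun H hH hHo x y => by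
      have : (𝓝[≠] (0 : q.comp)).NeBot := by
        let _ := nnfP q
        exact NormedField.nhdsNE_neBot (α := q.comp) 0
      exact comm_mem_of_open hHo x y) c.ker
    ((isOpen_CaySet _ _ hSR).prod (isOpen_CaySet _ _ hVo))
    ((CaySet_nonempty hA hn0 hw hg hspan hSR hSRne).prod
      (CaySet_nonempty hA hn0 hw hg' hspan' hVo hVne)) key
  obtain ⟨ε, hε, hεO⟩ := near_of_sm hg' hst B 1 (by rw [map_one]; exact hO)
  obtain ⟨T, hT1, hTb⟩ := exists_big B {q'}
  have hL : {u : UA A | rhoR g' (UA A) u ∈ O} ∈ FLv f B {q} := by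
    refine mem_FLv.mpr ⟨T, hTb, min ε 1, lt_min hε one_pos, min_le_right _ _, fun u _ hu => ?_⟩
    refine hεO u ?_
    have h1 := (hu.1 q' (hT1 (Finset.mem_singleton_self _)) (fun h => hqq h.symm)).mono
      (min_le_left ε 1)
    exact h1
  obtain ⟨x, hx, y, hy, hxy⟩ := hT.nonab
  obtain ⟨u, hu, rfl⟩ := hT.full _ hL x hx
  obtain ⟨v, hv, rfl⟩ := hT.full _ hL y hy
  have h1 := hOc u v hu hv
  rw [MonoidHom.mem_ker, map_commutatorElement, commutatorElement_eq_one_iff_mul_comm] at h1
  exact hxy h1

end main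

end Vale.Agent.P011.H732
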