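import Vale.Agent.P011.H40.CosFF
import Vale.Agent.P011.H732.CoreRing
import Vale.Agent.P011.H738.SolvFF
import Vale.Agent.P011.H871.CoreFF

/-!
# Function fields: every finite quotient of the special unitary group is solvable

`noTarget_all`, `solvable_all` : for every central simple algebra with anisotropic involution of the
second kind over a global function field, every characteristic, division algebra or not.
-/

open Module

namespace Vale.Agent.P011.H732

open Vale.Agent.P011.H738 Vale.Agent.P011.H271 Vale.Agent.P011.H698

variable {k K A Ω : Type} [Field k] [Field K] [StarRing K] [Ring A] [StarRing A]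
  [Algebra k K] [Algebra k A] [Algebra K A] [IsScalarTower k K A] [StarModule K A] {n N : ℕ}
  [Field Ω] [Algebra K Ω]

/-- **The core**, for every algebra with anisotropic involution. -/
theorem noTarget_all (hk : IsGlobalFunctionField k) (hA : Anis k K A n) (hn : 1 < n)
    (f : A →ₐ[K] Matrix (Fin n) (Fin n) Ω) (B : Basis (Fin N) k A) : NoTarget f B ∅ 0 := by
  have hgff : GFF k := gff_of_isGlobal hk
  have hSL : H74.StarLinR k A := ⟨H519.star_smul_of_anis hA⟩
  have hsim := hA.simple
  by_cases hdiv : ∃ x : A, x ≠ 0 ∧ ¬ IsUnit x
  · intro q
    exact noTarget_ring hk hA hn f B (H40.uprf hA (by omega) hdiv B q) q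
  · push Not at hdiv
    let _ : DivisionRing A := DivisionRing.ofIsUnitOrEqZero fun x => by
      by_cases hx : x = 0
      · exact Or.inr hx
      · exact Or.inl (hdiv x hx)
    exact Vale.Agent.P011.H871.noTarget_ff hk hA hn

/-- **Function fields: every finite quotient of `G(k)` is solvable.** -/
theorem solvable_all (hk : IsGlobalFunctionField k) (hA : Anis k K A n) (hn : 3 ≤ n)
    (f : A →ₐ[K] Matrix (Fin n) (Fin n) Ω) (M : Subgroup (SUA f)) [M.Normal]
    (hi : M.index ≠ 0) : Group.IsSolvable (SUA f ⧸ M) := by
  have hKf : FiniteDimensional k K := (H519.quad hA.fixed hA.star_ne).1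
  have hAf : FiniteDimensional K A := FiniteDimensional.of_finrank_pos (by
    rw [hA.finrank_eq]; positivity)
  have hAk : FiniteDimensional k A := Module.Finite.trans K A
  exact solvable_of_noTarget hk hA hn f (Module.finBasis k A)
    (noTarget_all hk hA (by omega) f _) M hi

end Vale.Agent.P011.H732
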