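import Vale.Agent.P011.H732.FSt
import Vale.Agent.P011.H732.AllFF
import Vale.Agent.P011.H738.FPlus2

/-!
The dichotomy over function fields in the letters of `FSt`.
-/

open Module TensorProduct Topology

namespace Vale.Agent.P011.H732F

open Vale.Agent.P011.H738 (Place SUA Anis IsGlobalFunctionField)

variable {k K A Ω : Type} [Field k] [Field K] [StarRing K] [Ring A] [StarRing A]
  [Algebra k K] [Algebra k A] [Algebra K A] [IsScalarTower k K A] [StarModule K A] {n : ℕ}
  [Field Ω] [Algebra K Ω]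

/-- **The dichotomy.** -/
theorem plus_all (hk : IsGlobalFunctionField k) (hA : Anis k K A n) (hn : 3 ≤ n)
    (f : A →ₐ[K] Matrix (Fin n) (Fin n) Ω) :
    ∃ δ : GK f →* HA A n (Adiv k K A), IsDiagonal δ ∧ DenseRange δ ∧
      ∀ (N : Subgroup (GK f)) [N.Normal], N.index ≠ 0 → Group.IsSolvable (GK f ⧸ N) ∧
        (IsOpenPreimage δ N ∨ ∃ Q H : Subgroup (GK f), N ≤ Q ∧ DenseCentral δ Q H) := by
  have hKf : FiniteDimensional k K := (H519.quad hA.fixed hA.star_ne).1
  have hAf : FiniteDimensional K A := FiniteDimensional.of_finrank_pos (by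
    rw [hA.finrank_eq]; positivity)
  have hAk : FiniteDimensional k A := Module.Finite.trans K A
  obtain ⟨δ, h1, h2, h3⟩ := H738.q1_plus_ff hk hA hn f (Module.finBasis k A)
    (H732.noTarget_all hk hA (by omega) f _)
  refine ⟨δ, h1, h2, fun N hn' hN => ?_⟩
  have h4 := @h3 N hn' hN
  refine ⟨h4.1, ?_⟩
  rcases h4.2 with h | ⟨Q, H, hNQ, hQ⟩
  · exact Or.inl h
  · exact Or.inr ⟨Q, H, hNQ, hQ.normal, hQ.normal', hQ.isOpen, hQ.le, hQ.prime, hQ.comm_mem,
      hQ.dense⟩

end Vale.Agent.P011.H732F
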