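import Vale.Agent.P011.H738.FDefs

/-!
The groups `G(k)`, `G(k_v)` and `H_A` over a global function field `k`.
-/

open Module TensorProduct Topology

namespace Vale.Agent.P011.H732F

open Vale.Agent.P011.H738 (Place SUA)

section comp

variable {k : Type} [Field k]

/-- The completion `k_v` of `k` at the place `v`. -/
def Kv (v : Place k) : Type := v.abv.Completion

/-- `k_v` is a commutative ring. -/
noncomputable instance instCommRingKv (v : Place k) : CommRing (Kv v) :=
  (inferInstance : CommRing v.abv.Completion)

/-- `k_v` is a topological space. -/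
noncomputable instance instTopKv (v : Place k) : TopologicalSpace (Kv v) :=
  (inferInstance : TopologicalSpace v.abv.Completion)

/-- `k` is contained in `k_v`. -/
noncomputable instance instAlgKv (v : Place k) : Algebra k (Kv v) :=
  (inferInstance : Algebra k v.abv.Completion)

end comp

section

variable (k A : Type) [Field k] [Ring A] [Algebra k A] (v : Place k)

/-- The algebra `A_v = k_v ⊗ A`. -/
def Av : Type := Kv v ⊗[k] A

noncomputable instance instRingAv : Ring (Av k A v) := Algebra.TensorProduct.instRing

noncomputable instance instAlgAv : Algebra (Kv v) (Av k A v) := Algebra.TensorProduct.leftAlgebra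

/-- `A_v` is a vector space over `k_v`. -/
noncomputable instance instModAv : Module (Kv v) (Av k A v) := Algebra.toModule

/-- `A_v` has the natural topology of a finite-dimensional vector space over `k_v`. -/
noncomputable instance instTopAv : TopologicalSpace (Av k A v) := moduleTopology (Kv v) (Av k A v)

/-- The inclusion of `A` in `A_v`. -/
noncomputable def inAv : A →+* Av k A v :=
  (Algebra.TensorProduct.includeRight : A →ₐ[k] Kv v ⊗[k] A).toRingHom

variable {k} {v} in
/-- The element `x` of `A_v` has reduced norm one: the determinant of the image of `x` is one under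
every homomorphism of algebras over `k_v` from `A_v` to the `n × n` matrices over a field, where
`n` is the degree of `A`. -/
def NrdOne (n : ℕ) (x : Av k A v) : Prop :=
  ∀ (Ω : Type) [Field Ω] [Algebra (Kv v) Ω]
    (F : Av k A v →ₐ[Kv v] Matrix (Fin n) (Fin n) Ω), (F x).det = 1

variable {k} {v} in
/-- The element `x` of `A_v` is unitary: `x σ(x) = 1` for the extension `σ` of the involution of
`A` to a linear map of `A_v` over `k_v`. -/
def IsUnitary [StarRing A] (x : Av k A v) : Prop :=
  ∀ σ : Av k A v →ₗ[Kv v] Av k A v,
    (∀ y : A, σ (inAv k A v y) = inAv k A v (star y)) → x * σ x = 1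

variable {k} [StarRing A]

variable {v} in
/-- The unitary elements of `A_v` of reduced norm one. -/
def InGv (n : ℕ) (x : (Av k A v)ˣ) : Prop :=
  IsUnitary A (x : Av k A v) ∧ NrdOne A n (x : Av k A v)

section

variable {A v}

theorem InGv_mul {n : ℕ} {x y : (Av k A v)ˣ} (hx : InGv A n x) (hy : InGv A n y) :
    InGv A n (x * y) := (H738.Gv A v n).mul_mem hx hy

theorem InGv_one {n : ℕ} : InGv A n (1 : (Av k A v)ˣ) := (H738.Gv A v n).one_mem

theorem InGv_inv {n : ℕ} {x : (Av k A v)ˣ} (hx : InGv A n x) : InGv A n x⁻¹ :=
  (H738.Gv A v n).inv_mem hx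

end

/-- The group `G(k_v)`. -/
def Gv (n : ℕ) : Subgroup (Av k A v)ˣ where
  carrier := {x | InGv A n x}
  mul_mem' := InGv_mul
  one_mem' := InGv_one
  inv_mem' := InGv_inv

/-- The group `G(k_v)` as a type. -/
def GTop (n : ℕ) : Type := Gv A v n

noncomputable instance instGroupGTop (n : ℕ) : Group (GTop A v n) := Subgroup.toGroup (Gv A v n)

/-- `G(k_v)` has the topology of a subspace of the group of units of `A_v`. -/
noncomputable instance instTopGTop (n : ℕ) : TopologicalSpace (GTop A v n) :=
  instTopologicalSpaceSubtype (X := (Av k A v)ˣ)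

variable {A v} in
/-- The element of `A_v` underlying an element of `G(k_v)`. -/
def GTop.val {n : ℕ} (x : GTop A v n) : Av k A v := ((Subtype.val x : (Av k A v)ˣ) : Av k A v)

/-- The product of the groups `G(k_v)`, `v` in `S`. -/
def HA (n : ℕ) (S : Set (Place k)) : Type := ∀ v : S, GTop A v.1 n

noncomputable instance instGroupHA (n : ℕ) (S : Set (Place k)) : Group (HA A n S) := Pi.group

/-- The product topology. -/
noncomputable instance instTopHA (n : ℕ) (S : Set (Place k)) : TopologicalSpace (HA A n S) :=
  Pi.topologicalSpace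

variable {A} in
/-- The component at `v` of an element of the product, as an element of `A_v`. -/
def HA.at {n : ℕ} {S : Set (Place k)} (x : HA A n S) (v : S) : Av k A v.1 := (x v).val

end

section global

variable {K A Ω : Type} [Field K] [Ring A] [StarRing A] [Algebra K A] [Field Ω] [Algebra K Ω]
  {n : ℕ}

/-- The group `G(k)` of the unitary elements of reduced norm one of `A`, as a type. -/
def GK (f : A →ₐ[K] Matrix (Fin n) (Fin n) Ω) : Type := SUA f

noncomputable instance instGroupGK (f : A →ₐ[K] Matrix (Fin n) (Fin n) Ω) : Group (GK f) :=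
  Subgroup.toGroup (SUA f)

/-- The element of `A` underlying an element of `G(k)`. -/
def GK.val {f : A →ₐ[K] Matrix (Fin n) (Fin n) Ω} (g : GK f) : A := ((Subtype.val g : Aˣ) : A)

variable {k : Type} [Field k] [Algebra k A] {f : A →ₐ[K] Matrix (Fin n) (Fin n) Ω}
  {S : Set (Place k)}

/-- `δ` is the diagonal map of `G(k)` to the product of the groups `G(k_v)`, `v` in `S`. -/
def IsDiagonal (δ : GK f →* HA A n S) : Prop :=
  ∀ (g : GK f) (v : S), (δ g).at v = inAv k A v.1 g.val

/-- The subgroup `N` of `G(k)` is the preimage under `δ` of an open subgroup `W`, which is normal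
if `N` is normal. -/
def IsOpenPreimage (δ : GK f →* HA A n S) (N : Subgroup (GK f)) : Prop :=
  ∃ W : Subgroup (HA A n S), IsOpen (W : Set (HA A n S)) ∧ N = W.comap δ ∧ (N.Normal → W.Normal)

/-- `H` is a normal subgroup of `G(k)`, the preimage of an open subgroup of `H_A`, and `Q` is a
normal subgroup of `G(k)` contained in `H`, of prime index in `H`, such that `H / Q` is central in
`G(k) / Q` and `Q` is dense in `H`: every subgroup which contains `Q` and is the preimage of an open
subgroup of `H_A` contains `H`. -/
def DenseCentral (δ : GK f →* HA A n S) (Q H : Subgroup (GK f)) : Prop :=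
  Q.Normal ∧ H.Normal ∧ IsOpenPreimage δ H ∧ Q ≤ H ∧ (Q.relIndex H).Prime ∧
    (∀ g : GK f, ∀ x ∈ H, g * x * g⁻¹ * x⁻¹ ∈ Q) ∧
    ∀ V : Subgroup (GK f), Q ≤ V → IsOpenPreimage δ V → H ≤ V

end global

section adiv

variable {k K : Type} (A : Type) [Field k] [Field K] [Ring A] [Algebra k K] [Algebra K A]
  {v : Place k}

/-- The algebra `k_v ⊗_K A` for an embedding of `K` in `k_v`. -/
def AK (φ : K →ₐ[k] Kv v) : Type :=
  letI := (φ : K →+* Kv v).toAlgebra
  Kv v ⊗[K] A

noncomputable instance instRingAK (φ : K →ₐ[k] Kv v) : Ring (AK A φ) :=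
  letI := (φ : K →+* Kv v).toAlgebra
  Algebra.TensorProduct.instRing (R := K) (A := Kv v) (B := A)

end adiv

/-- The places `v` of `k` such that `K` embeds in `k_v` and `A` is a division algebra over `k_v`,
i.e. `k_v ⊗_K A` is a division algebra. -/
def Adiv (k K A : Type) [Field k] [Field K] [Ring A] [Algebra k K] [Algebra K A] :
    Set (Place k) :=
  {v | ∃ φ : K →ₐ[k] Kv v, ∀ x : AK A φ, x ≠ 0 → IsUnit x}

end Vale.Agent.P011.H732F
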