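import Vale.Agent.P011.H565.Gen

/-!
# Homomorphisms from a group dense in a product, trivial on an open set

* `comm_mem_of_open` : an open normal subgroup of `GL_n(F)` contains all commutators.
* `comm_mem_of_two` : `U` is dense in `G₀ × G₁`, every open normal subgroup of `G₀` contains the
  commutators, `M` is a normal subgroup of `U` which contains all elements of `U` near one given
  point of `G₀ × G₁`; then `M` contains the commutators of the elements of `U` whose component in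
  `G₁` is close to one.
-/

open Matrix Filter
open scoped Topology commutatorElement

namespace Vale.Agent.P011.H732

open Vale.Agent.P011.H565

section gl

variable {ι : Type*} [Fintype ι] [DecidableEq ι] {F : Type*} [Field F] [TopologicalSpace F]
  [IsTopologicalRing F]

theorem continuous_tv {i j : ι} (hij : i ≠ j) :
    Continuous fun c : F => (tv hij c : (Matrix ι ι F)ˣ) := by
  have h1 : ∀ s : F → F, Continuous s → Continuous fun c => transvection i j (s c) := by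
    intro s hs
    unfold transvection
    refine continuous_const.add ?_
    refine continuous_matrix fun a b => ?_
    by_cases h : i = a ∧ j = b
    · obtain ⟨rfl, rfl⟩ := h
      simpa using hs
    · simp only [Matrix.single_apply_of_ne _ _ _ _ _ h]
      exact continuous_const
  rw [Units.continuous_iff]
  exact ⟨h1 _ continuous_id, h1 _ continuous_neg⟩

/-- The transvections lie in every open normal subgroup. -/
theorem tv_mem [(𝓝[≠] (0 : F)).NeBot] {H : Subgroup (Matrix ι ι F)ˣ} [hH : H.Normal]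
    (hO : IsOpen (H : Set (Matrix ι ι F)ˣ)) {i j : ι} (hij : i ≠ j) (c : F) : tv hij c ∈ H := by
  by_cases hc : c = 0
  · have h0 : (tv hij c : (Matrix ι ι F)ˣ) = 1 := by
      ext1
      change transvection i j c = 1
      rw [hc, transvection_zero]
    rw [h0]
    exact H.one_mem
  have h1 : {c : F | tv hij c ∈ H} ∈ 𝓝 (0 : F) := by
    refine (hO.preimage (continuous_tv hij)).mem_nhds ?_
    have h0 : (tv hij 0 : (Matrix ι ι F)ˣ) = 1 := by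
      ext1
      change transvection i j (0 : F) = 1
      rw [transvection_zero]
    change tv hij 0 ∈ H
    rw [h0]
    exact H.one_mem
  obtain ⟨d, hd, hd0⟩ : ∃ d : F, tv hij d ∈ H ∧ d ≠ 0 := by
    have h2 : ∀ᶠ d in 𝓝[≠] (0 : F), tv hij d ∈ H := eventually_nhdsWithin_of_eventually_nhds h1
    obtain ⟨d, h3, h4⟩ := (h2.and self_mem_nhdsWithin).exists
    exact ⟨d, h3, h4⟩
  let b : ι → Fˣ := Function.update (1 : ι → Fˣ) i (Units.mk0 (c / d) (div_ne_zero hc hd0))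
  have h3 := hH.conj_mem _ hd (dg b)
  rw [dg_mul_tv] at h3
  have h4 : (b i : F) * d * ((b j)⁻¹ : Fˣ) = c := by
    have hbi : b i = Units.mk0 (c / d) (div_ne_zero hc hd0) := Function.update_self _ _ _
    have hbj : b j = 1 := by
      change Function.update (1 : ι → Fˣ) i _ j = 1
      rw [Function.update_of_ne hij.symm]
      rfl
    rw [hbi, hbj, Units.val_mk0, inv_one, Units.val_one, mul_one, div_mul_cancel₀ _ hd0]
  rwa [h4] at h3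

/-- **An open normal subgroup of `GL_n(F)` contains all commutators.** -/
theorem comm_mem_of_open [(𝓝[≠] (0 : F)).NeBot] {H : Subgroup (Matrix ι ι F)ˣ} [hH : H.Normal]
    (hO : IsOpen (H : Set (Matrix ι ι F)ˣ)) (g h : (Matrix ι ι F)ˣ) : ⁅g, h⁆ ∈ H := by
  have key : ∀ g : (Matrix ι ι F)ˣ, ∃ b : ι → Fˣ, (QuotientGroup.mk g : (Matrix ι ι F)ˣ ⧸ H) =
      QuotientGroup.mk (dg b) := by
    intro g
    have hdet : (g : Matrix ι ι F).det ≠ 0 :=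
      ((Matrix.isUnit_iff_isUnit_det _).1 g.isUnit).ne_zero
    obtain ⟨u, b, hub, hu⟩ : ∃ (u : (Matrix ι ι F)ˣ) (b : ι → Fˣ),
        (QuotientGroup.mk u : (Matrix ι ι F)ˣ ⧸ H) = QuotientGroup.mk (dg b) ∧
        (u : Matrix ι ι F) = g := by
      refine diagonal_transvection_induction_of_det_ne_zero
        (fun M => ∃ (u : (Matrix ι ι F)ˣ) (b : ι → Fˣ),
          (QuotientGroup.mk u : (Matrix ι ι F)ˣ ⧸ H) = QuotientGroup.mk (dg b) ∧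
          ((u : (Matrix ι ι F)ˣ) : Matrix ι ι F) = M) (g : Matrix ι ι F) hdet ?_ ?_ ?_
      · intro d hd
        rw [det_diagonal, Finset.prod_ne_zero_iff] at hd
        exact ⟨_, fun i => Units.mk0 (d i) (hd i (Finset.mem_univ i)), rfl, by simp [dg]⟩
      · intro t
        refine ⟨tv t.hij t.c, 1, ?_, rfl⟩
        have h1 : (dg 1 : (Matrix ι ι F)ˣ) = 1 := by
          ext1
          simp [dg]
        rw [h1, QuotientGroup.mk_one, QuotientGroup.eq_one_iff]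
        exact tv_mem hO t.hij t.c
      · rintro A B - - ⟨u, b, hu, rfl⟩ ⟨v, b', hv, rfl⟩
        refine ⟨u * v, b * b', ?_, rfl⟩
        rw [QuotientGroup.mk_mul, hu, hv, ← QuotientGroup.mk_mul, dg_mul]
    rw [Units.ext hu] at hub
    exact ⟨b, hub⟩
  obtain ⟨b, hb⟩ := key g
  obtain ⟨b', hb'⟩ := key h
  have h1 : (QuotientGroup.mk ⁅g, h⁆ : (Matrix ι ι F)ˣ ⧸ H) = 1 := by
    have h2 : (QuotientGroup.mk ⁅g, h⁆ : (Matrix ι ι F)ˣ ⧸ H) =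
        ⁅(QuotientGroup.mk g : (Matrix ι ι F)ˣ ⧸ H), QuotientGroup.mk h⁆ := rfl
    rw [h2, hb, hb', commutatorElement_eq_one_iff_mul_comm, ← QuotientGroup.mk_mul,
      ← QuotientGroup.mk_mul, dg_mul, dg_mul, mul_comm]
  exact (QuotientGroup.eq_one_iff _).1 h1

end gl

section two

variable {U G₀ G₁ : Type*} [Group U] [Group G₀] [TopologicalSpace G₀] [IsTopologicalGroup G₀]
  [Group G₁] [TopologicalSpace G₁] [IsTopologicalGroup G₁]

/-- `g ∈ G₀` is near if the elements of `U` close to `g` in `G₀` and to one in `G₁` are in `M`. -/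
def Nr (ρ₀ : U →* G₀) (ρ₁ : U →* G₁) (M : Subgroup U) (g : G₀) : Prop :=
  ∀ᶠ p in 𝓝 (g, (1 : G₁)), ∀ u, ρ₀ u = p.1 → ρ₁ u = p.2 → u ∈ M

/-- **The commutators near one.** -/
theorem comm_mem_of_two (ρ₀ : U →* G₀) (ρ₁ : U →* G₁)
    (hρ : DenseRange fun u : U => (ρ₀ u, ρ₁ u))
    (hG₀ : ∀ H : Subgroup G₀, H.Normal → IsOpen (H : Set G₀) → ∀ g h : G₀, ⁅g, h⁆ ∈ H)
    (M : Subgroup U) [hM : M.Normal] {S : Set (G₀ × G₁)} (hS : IsOpen S) (hne : S.Nonempty)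
    (hSM : ∀ u, (ρ₀ u, ρ₁ u) ∈ S → u ∈ M) :
    ∃ N ∈ 𝓝 (1 : G₁), ∀ u v, ρ₁ u ∈ N → ρ₁ v ∈ N → ⁅u, v⁆ ∈ M := by
  -- density
  have hfr : ∀ p : G₀ × G₁, ∀ P : G₀ × G₁ → Prop, (∀ᶠ x in 𝓝 p, P x) → ∃ u, P (ρ₀ u, ρ₁ u) := by
    intro p P hP
    obtain ⟨_, ⟨u, rfl⟩, hu⟩ := (mem_closure_iff_frequently.1
      (hρ.closure_eq ▸ Set.mem_univ p : p ∈ closure _)).and_eventually hP |>.exists
    exact ⟨u, hu⟩
  -- one
  have hone : Nr ρ₀ ρ₁ M 1 := by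
    obtain ⟨s, hs⟩ := hne
    obtain ⟨u₁, hu₁⟩ := hfr s (fun x => x ∈ S) (hS.mem_nhds hs)
    have h1 : Tendsto (fun p : G₀ × G₁ => (p.1 * ρ₀ u₁, p.2 * ρ₁ u₁)) (𝓝 (1, 1))
        (𝓝 (ρ₀ u₁, ρ₁ u₁)) := by
      have h2 : Continuous fun p : G₀ × G₁ => (p.1 * ρ₀ u₁, p.2 * ρ₁ u₁) := by fun_prop
      have h3 := h2.tendsto (1, 1)
      simpa using h3
    filter_upwards [h1.eventually (hS.mem_nhds hu₁)] with p hp u h4 h5
    have h6 : u * u₁ ∈ M := hSM _ (by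
      rw [map_mul, map_mul, h4, h5]
      exact hp)
    have h7 := M.mul_mem h6 (M.inv_mem (hSM _ hu₁))
    rwa [mul_inv_cancel_right] at h7
  have hmul : ∀ g h : G₀, Nr ρ₀ ρ₁ M g → Nr ρ₀ ρ₁ M h → Nr ρ₀ ρ₁ M (g * h) := by
    intro g h hg hh
    have h1 : Tendsto (fun y : G₀ × G₁ => ((y.1)⁻¹ * (g * h), (y.2)⁻¹ * 1)) (𝓝 (g, 1))
        (𝓝 (h, 1)) := by
      have h2 : Continuous fun y : G₀ × G₁ => ((y.1)⁻¹ * (g * h), (y.2)⁻¹ * 1) := by fun_prop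
      have h3 := h2.tendsto (g, 1)
      simpa using h3
    have h3 := h1.eventually (eventually_eventually_nhds.2 hh)
    obtain ⟨u₁, h4, h5⟩ := hfr (g, 1) _ (hg.and h3)
    have hu₁ : u₁ ∈ M := h4 u₁ rfl rfl
    have h6 : Tendsto (fun x : G₀ × G₁ => ((ρ₀ u₁)⁻¹ * x.1, (ρ₁ u₁)⁻¹ * x.2)) (𝓝 (g * h, 1))
        (𝓝 ((ρ₀ u₁)⁻¹ * (g * h), (ρ₁ u₁)⁻¹ * 1)) := by
      have h7 : Continuous fun x : G₀ × G₁ => ((ρ₀ u₁)⁻¹ * x.1, (ρ₁ u₁)⁻¹ * x.2) := by fun_prop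
      exact h7.tendsto (g * h, 1)
    filter_upwards [h6.eventually h5] with x hx u h7 h8
    have h9 := hx (u₁⁻¹ * u) (by rw [map_mul, map_inv, h7]) (by rw [map_mul, map_inv, h8])
    have h10 := M.mul_mem hu₁ h9
    rwa [mul_inv_cancel_left] at h10
  have hinv : ∀ g : G₀, Nr ρ₀ ρ₁ M g → Nr ρ₀ ρ₁ M g⁻¹ := by
    intro g hg
    have h1 : Tendsto (fun y : G₀ × G₁ => ((y.1)⁻¹, (y.2)⁻¹)) (𝓝 (g⁻¹, 1)) (𝓝 (g, 1)) := by
      have h2 : Continuous fun y : G₀ × G₁ => ((y.1)⁻¹, (y.2)⁻¹) := by fun_prop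
      have h3 := h2.tendsto (g⁻¹, 1)
      simpa using h3
    filter_upwards [h1.eventually hg] with x hx u h2 h3
    have h4 := hx u⁻¹ (by rw [map_inv, h2]) (by rw [map_inv, h3])
    exact inv_mem_iff.1 h4
  have hconj : ∀ g y : G₀, Nr ρ₀ ρ₁ M g → Nr ρ₀ ρ₁ M (y * g * y⁻¹) := by
    intro g y hg
    have h1 : Tendsto (fun v : G₀ × G₁ => ((v.1)⁻¹ * (y * g * y⁻¹) * v.1, (v.2)⁻¹ * 1 * v.2))
        (𝓝 (y, 1)) (𝓝 (g, 1)) := by
      have h2 : Continuous fun v : G₀ × G₁ =>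
          ((v.1)⁻¹ * (y * g * y⁻¹) * v.1, (v.2)⁻¹ * 1 * v.2) := by fun_prop
      have h3 := h2.tendsto (y, 1)
      have e1 : y⁻¹ * (y * g * y⁻¹) * y = g := by group
      simpa [e1] using h3
    obtain ⟨v, hv⟩ := hfr (y, 1) _ (h1.eventually (eventually_eventually_nhds.2 hg))
    have h6 : Tendsto (fun x : G₀ × G₁ => ((ρ₀ v)⁻¹ * x.1 * ρ₀ v, (ρ₁ v)⁻¹ * x.2 * ρ₁ v))
        (𝓝 (y * g * y⁻¹, 1)) (𝓝 ((ρ₀ v)⁻¹ * (y * g * y⁻¹) * ρ₀ v, (ρ₁ v)⁻¹ * 1 * ρ₁ v)) := by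
      have h7 : Continuous fun x : G₀ × G₁ =>
          ((ρ₀ v)⁻¹ * x.1 * ρ₀ v, (ρ₁ v)⁻¹ * x.2 * ρ₁ v) := by fun_prop
      exact h7.tendsto (y * g * y⁻¹, 1)
    filter_upwards [h6.eventually hv] with x hx u h7 h8
    have h9 := hx (v⁻¹ * u * v) (by rw [map_mul, map_mul, map_inv, h7])
      (by rw [map_mul, map_mul, map_inv, h8])
    have h10 := hM.conj_mem _ h9 v
    have e1 : v * (v⁻¹ * u * v) * v⁻¹ = u := by group
    rwa [e1] at h10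
  let H : Subgroup G₀ :=
    { carrier := {g | Nr ρ₀ ρ₁ M g}
      mul_mem' := fun {a b} ha hb => hmul a b ha hb
      one_mem' := hone
      inv_mem' := fun {a} ha => hinv a ha }
  have hHn : H.Normal := ⟨fun g hg y => hconj g y hg⟩
  have hHo : IsOpen (H : Set G₀) := by
    rw [isOpen_iff_mem_nhds]
    intro g hg
    have h1 : ∀ᶠ p in 𝓝 (g, (1 : G₁)), ∀ᶠ p' in 𝓝 p, ∀ u, ρ₀ u = p'.1 → ρ₁ u = p'.2 → u ∈ M :=
      eventually_eventually_nhds.2 hg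
    have h2 : Tendsto (fun x : G₀ => (x, (1 : G₁))) (𝓝 g) (𝓝 (g, 1)) := by
      have h3 : Continuous fun x : G₀ => (x, (1 : G₁)) := by fun_prop
      exact h3.tendsto g
    exact h2.eventually h1
  have hcm : ∀ g h : G₀, Nr ρ₀ ρ₁ M ⁅g, h⁆ := fun g h => hG₀ H hHn hHo g h
  -- the neighbourhood
  have h1 : Tendsto (fun x : (G₁ × G₁) × G₁ => ((1 : G₀), ⁅x.1.1, x.1.2⁆ * (x.2)⁻¹))
      (𝓝 ((1, 1), 1)) (𝓝 (1, 1)) := by
    have h2 : Continuous fun x : (G₁ × G₁) × G₁ => ((1 : G₀), ⁅x.1.1, x.1.2⁆ * (x.2)⁻¹) := by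
      simp only [commutatorElement_def]
      fun_prop
    have h3 := h2.tendsto ((1, 1), 1)
    simpa using h3
  have h2 := h1.eventually (eventually_eventually_nhds.2 hone)
  rw [nhds_prod_eq, nhds_prod_eq] at h2
  obtain ⟨P, hP, N₃, hN₃, h3⟩ := mem_prod_iff.1 h2
  obtain ⟨N₁, hN₁, N₂, hN₂, h4⟩ := mem_prod_iff.1 hP
  refine ⟨N₁ ∩ N₂, inter_mem hN₁ hN₂, fun u v hu hv => ?_⟩
  obtain ⟨y, hy⟩ : ∃ y, ρ₁ u = y := ⟨_, rfl⟩
  obtain ⟨z, hz⟩ : ∃ z, ρ₁ v = z := ⟨_, rfl⟩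
  rw [hy] at hu
  rw [hz] at hv
  -- `g = ⁅ρ₀ u, ρ₀ v⁆`
  have h5 : Tendsto (fun x : G₀ × G₁ => (⁅ρ₀ u, ρ₀ v⁆ * (x.1)⁻¹, ⁅y, z⁆ * (x.2)⁻¹))
      (𝓝 (⁅ρ₀ u, ρ₀ v⁆, 1)) (𝓝 (1, ⁅y, z⁆ * 1⁻¹)) := by
    have h6 : Continuous fun x : G₀ × G₁ => (⁅ρ₀ u, ρ₀ v⁆ * (x.1)⁻¹, ⁅y, z⁆ * (x.2)⁻¹) := by
      fun_prop
    have h7 := h6.tendsto (⁅ρ₀ u, ρ₀ v⁆, 1)
    rwa [mul_inv_cancel] at h7
  have h7 : ∀ᶠ p in 𝓝 ((1 : G₀), ⁅y, z⁆ * 1⁻¹), ∀ u, ρ₀ u = p.1 → ρ₁ u = p.2 → u ∈ M :=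
    h3 (show ((y, z), (1 : G₁)) ∈ P ×ˢ N₃ from ⟨h4 ⟨hu.1, hv.2⟩, mem_of_mem_nhds hN₃⟩)
  obtain ⟨u', h8, h9⟩ := hfr (⁅ρ₀ u, ρ₀ v⁆, 1) _ ((hcm (ρ₀ u) (ρ₀ v)).and (h5.eventually h7))
  have hu' : u' ∈ M := h8 u' rfl rfl
  have h10 := h9 (⁅u, v⁆ * u'⁻¹) (by
    rw [map_mul, map_inv, map_commutatorElement]) (by
    rw [map_mul, map_inv, map_commutatorElement, hy, hz])
  have h11 := M.mul_mem h10 hu'
  rwa [inv_mul_cancel_right] at h11

end two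

end Vale.Agent.P011.H732
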